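import Vale.Agent.P159.TM.H104.Ubd
import Vale.Agent.P159.TM.H215.Charge
import Vale.Agent.P159.TM.H316.Clamp
import Vale.Agent.P159.TM.H365.Phi
import Vale.Agent.P159.TM.Spec.C

/-!
P159 T1, row MEAS (part C): `U ≥ 0`, the coarse density
`rho G = exp (-(∑ G u ^ 2) / (2 s2) - Ub (A G))` is continuous, positive and integrable on
`C → ℝ`; the charges `xm`, `xb` and the clamped charge composed with `A` are continuous; the set
of coarse fields whose image is Lipschitz is closed.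
-/

namespace Vale.Agent.P159.TM.H845

open Finset MeasureTheory Filter Topology
open Vale.Agent.P159.TM.H871 (Wt Ub Gin Sup gs Z)
open Vale.Agent.P159.TM.H104 (U dU sh)

variable {V : Type*} [Fintype V] {W : (V → ℤ) → ℝ} {m : V → ℝ}

/-! ### `U ≥ 0` -/

omit [Fintype V] in
theorem wt_one : Wt (fun _ : V → ℤ => (1 : ℝ)) :=
  ⟨fun _ => zero_le_one, ⟨1, fun _ => le_rfl⟩, ⟨0, one_pos⟩⟩

theorem Z_one_shift (f : V → ℝ) (k : V → ℤ) :
    Z (fun _ => 1) m (fun x => f x + k x) = Z (fun _ => 1) m f := by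
  unfold Z
  rw [← (Equiv.addRight k).tsum_eq]
  refine tsum_congr fun h => ?_
  simp only [Equiv.coe_addRight]
  rw [H871.gs_shift]

theorem Z_one_bdd (hm : ∀ x, 0 < m x) : ∃ B, ∀ f : V → ℝ, Z (fun _ => 1) m f ≤ B := by
  have hK : IsCompact (Set.Icc (0 : V → ℝ) 1) := isCompact_Icc
  obtain ⟨B, hB⟩ := (hK.image (wt_one.continuous_Z hm)).bddAbove
  refine ⟨B, fun f => ?_⟩
  have h1 := Z_one_shift (m := m) (fun x => Int.fract (f x)) fun x => ⌊f x⌋
  have e : (fun x => Int.fract (f x) + (⌊f x⌋ : ℝ)) = f := by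
    funext x
    exact Int.fract_add_floor (f x)
  rw [e] at h1
  rw [h1]
  refine hB ⟨_, ⟨fun x => Int.fract_nonneg _, fun x => (Int.fract_lt_one _).le⟩, rfl⟩

theorem Z_bdd (hW : Wt W) (hm : ∀ x, 0 < m x) : ∃ B, 0 < B ∧ ∀ f : V → ℝ, Z W m f ≤ B := by
  obtain ⟨C, hC⟩ := hW.bdd
  obtain ⟨B, hB⟩ := Z_one_bdd hm
  have hC0 : 0 ≤ C := by
    obtain ⟨h, hh⟩ := hW.pos
    exact hh.le.trans (hC h)
  have key : ∀ f : V → ℝ, Z W m f ≤ C * B := fun f => by
    have h1 : Z W m f ≤ C * Z (fun _ => 1) m f := by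
      unfold Z
      rw [← tsum_mul_left]
      refine (hW.summable hm f).tsum_le_tsum (fun h => ?_) ((wt_one.summable hm f).mul_left C)
      rw [one_mul]
      exact mul_le_mul_of_nonneg_right (hC h) (H871.gs_pos m f h).le
    exact h1.trans (mul_le_mul_of_nonneg_left (hB f) hC0)
  exact ⟨C * B, (hW.Z_pos hm 0).trans_le (key 0), key⟩

/-- `U` is bounded below -/
theorem U_bddBelow (hW : Wt W) (hm : ∀ x, 0 < m x) : ∃ L : ℝ, ∀ f : V → ℝ, L ≤ U W m f := by
  obtain ⟨B, hB0, hB⟩ := Z_bdd hW hm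
  refine ⟨-Real.log (B / Z W m 0), fun f => ?_⟩
  rw [← H104.U_871]
  unfold H871.U
  refine neg_le_neg (Real.log_le_log (div_pos (hW.Z_pos hm f) (hW.Z_pos hm 0)) ?_)
  exact div_le_div_of_nonneg_right (hB f) (hW.Z_pos hm 0).le

/-- **`U ≥ 0`** in every real background -/
theorem U_nonneg (hW : Wt W) (hm : ∀ x, 0 < m x) (hG : Gin W m) (f : V → ℝ) : 0 ≤ U W m f := by
  obtain ⟨L, hL⟩ := U_bddBelow hW hm
  by_contra hcon
  push Not at hcon
  have hind : ∀ k : ℕ, U W m ((2 ^ k : ℕ) • f) ≤ 4 ^ k * U W m f := by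
    intro k
    induction k with
    | zero => simp
    | succ k ih =>
      have h : U W m (2 • ((2 ^ k : ℕ) • f)) ≤ 4 * U W m ((2 ^ k : ℕ) • f) :=
        H871.gin_half hW hm hG ((2 ^ k : ℕ) • f)
      have e : (2 ^ (k + 1) : ℕ) • f = 2 • ((2 ^ k : ℕ) • f) := by
        rw [pow_succ, mul_comm, mul_smul]
      rw [e]
      calc _ ≤ _ := h
        _ ≤ 4 * (4 ^ k * U W m f) := by linarith
        _ = _ := by ring
  obtain ⟨k, hk⟩ := pow_unbounded_of_one_lt (-L / -U W m f) (by norm_num : (1 : ℝ) < 4)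
  rw [div_lt_iff₀ (by linarith)] at hk
  have := (hL _).trans (hind k)
  nlinarith

theorem Z_le_zero (hW : Wt W) (hm : ∀ x, 0 < m x) (hG : Gin W m) (f : V → ℝ) :
    Z W m f ≤ Z W m 0 := by
  have h : 0 ≤ H871.U W m f := U_nonneg hW hm hG f
  unfold H871.U at h
  have h1 : Real.log (Z W m f / Z W m 0) ≤ 0 := by linarith
  have h2 := (Real.log_nonpos_iff (div_pos (hW.Z_pos hm f) (hW.Z_pos hm 0)).le).1 h1
  rwa [div_le_one (hW.Z_pos hm 0)] at h2

/-- **`Ub ≥ 0`** -/
theorem Ub_nonneg (hW : Wt W) (hm : ∀ x, 0 < m x) (hG : Gin W m) (f : V → ℝ) :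
    0 ≤ Ub W m f :=
  intervalIntegral.integral_nonneg zero_le_one fun _ _ => U_nonneg hW hm hG _

theorem Ub_cont (hW : Wt W) (hm : ∀ x, 0 < m x) : Continuous (Ub W m) := H871.Ub_cont hW hm

/-! ### the coarse density -/

section density

variable {C : Type*} [Fintype C]

/-- the coarse density -/
noncomputable def rho (W : (V → ℤ) → ℝ) (m : V → ℝ) (A : (C → ℝ) → V → ℝ) (s2 : ℝ)
    (G : C → ℝ) : ℝ := Real.exp (-(∑ u, G u ^ 2) / (2 * s2) - Ub W m (A G))

omit [Fintype V] in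
theorem rho_pos [Fintype V] (W : (V → ℤ) → ℝ) (m : V → ℝ) (A : (C → ℝ) → V → ℝ) (s2 : ℝ)
    (G : C → ℝ) : 0 < rho W m A s2 G := Real.exp_pos _

theorem rho_log (W : (V → ℤ) → ℝ) (m : V → ℝ) (A : (C → ℝ) → V → ℝ) (s2 : ℝ)
    (G : C → ℝ) : Real.log (rho W m A s2 G) = -(∑ u, G u ^ 2) / (2 * s2) - Ub W m (A G) :=
  Real.log_exp _

theorem rho_cont (hW : Wt W) (hm : ∀ x, 0 < m x) {A : (C → ℝ) → V → ℝ} (hA : Continuous A)
    (s2 : ℝ) : Continuous (rho W m A s2) := by
  have h1 : Continuous fun G : C → ℝ => Ub W m (A G) := (Ub_cont hW hm).comp hA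
  have h2 : Continuous fun G : C → ℝ => -(∑ u, G u ^ 2) / (2 * s2) := by fun_prop
  exact Real.continuous_exp.comp (h2.sub h1)

theorem rho_meas (hW : Wt W) (hm : ∀ x, 0 < m x) {A : (C → ℝ) → V → ℝ} (hA : Continuous A)
    (s2 : ℝ) : Measurable (rho W m A s2) := (rho_cont hW hm hA s2).measurable

/-- Gaussian density on `C → ℝ` -/
theorem gauss_int {s2 : ℝ} (hs : 0 < s2) :
    Integrable fun G : C → ℝ => Real.exp (-(∑ u, G u ^ 2) / (2 * s2)) := by
  have h1 : ∀ u : C, Integrable fun x : ℝ => Real.exp (-(1 / (2 * s2)) * x ^ 2) := fun _ =>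
    integrable_exp_neg_mul_sq (by positivity)
  have h2 := Integrable.fintype_prod (μ := fun _ : C => (volume : Measure ℝ)) h1
  refine h2.congr (Filter.Eventually.of_forall fun G => ?_)
  simp only
  rw [← Real.exp_sum]
  congr 1
  rw [← Finset.mul_sum]
  ring

theorem rho_le (hW : Wt W) (hm : ∀ x, 0 < m x) (hG : Gin W m) (A : (C → ℝ) → V → ℝ) (s2 : ℝ)
    (G : C → ℝ) : rho W m A s2 G ≤ Real.exp (-(∑ u, G u ^ 2) / (2 * s2)) := by
  unfold rho
  have := Ub_nonneg hW hm hG (A G)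
  exact Real.exp_le_exp.2 (by linarith)

/-- **the coarse density is integrable** -/
theorem rho_int (hW : Wt W) (hm : ∀ x, 0 < m x) (hG : Gin W m) {A : (C → ℝ) → V → ℝ}
    (hA : Continuous A) {s2 : ℝ} (hs : 0 < s2) : Integrable (rho W m A s2) := by
  refine (gauss_int hs).mono' (rho_cont hW hm hA s2).aestronglyMeasurable
    (Filter.Eventually.of_forall fun G => ?_)
  rw [Real.norm_eq_abs, abs_of_pos (rho_pos W m A s2 G)]
  exact rho_le hW hm hG A s2 G

theorem rho_int_pos (hW : Wt W) (hm : ∀ x, 0 < m x) (hG : Gin W m) {A : (C → ℝ) → V → ℝ}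
    (hA : Continuous A) {s2 : ℝ} (hs : 0 < s2) : 0 < ∫ G : C → ℝ, rho W m A s2 G := by
  refine (integral_pos_iff_support_of_nonneg (fun G => (rho_pos W m A s2 G).le)
    (rho_int hW hm hG hA hs)).2 ?_
  have : Function.support (rho W m A s2) = Set.univ := by
    ext G
    simp [(rho_pos W m A s2 G).ne']
  rw [this]
  exact isOpen_univ.measure_pos _ Set.univ_nonempty

/-- bounded continuous (measurable) functions are integrable against the density -/
theorem bdd_int {F : (C → ℝ) → ℂ} (hF : Measurable F) {B : ℝ} (hB : ∀ G, ‖F G‖ ≤ B)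
    (hW : Wt W) (hm : ∀ x, 0 < m x) (hG : Gin W m) {A : (C → ℝ) → V → ℝ}
    (hA : Continuous A) {s2 : ℝ} (hs : 0 < s2) :
    Integrable fun G : C → ℝ => F G * (rho W m A s2 G : ℂ) := by
  have h1 : Integrable fun G : C → ℝ => ((rho W m A s2 G : ℝ) : ℂ) :=
    (rho_int hW hm hG hA hs).ofReal
  exact h1.bdd_mul hF.aestronglyMeasurable (Filter.Eventually.of_forall hB)

theorem bdd_int_real {F : (C → ℝ) → ℝ} (hF : Measurable F) {B : ℝ} (hB : ∀ G, |F G| ≤ B)
    (hW : Wt W) (hm : ∀ x, 0 < m x) (hG : Gin W m) {A : (C → ℝ) → V → ℝ}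
    (hA : Continuous A) {s2 : ℝ} (hs : 0 < s2) :
    Integrable fun G : C → ℝ => F G * rho W m A s2 G :=
  (rho_int hW hm hG hA hs).bdd_mul hF.aestronglyMeasurable (Filter.Eventually.of_forall hB)

/-- the normalised integral against the density -/
noncomputable def nub (W : (V → ℤ) → ℝ) (m : V → ℝ) (A : (C → ℝ) → V → ℝ) (s2 : ℝ)
    (F : (C → ℝ) → ℂ) : ℂ :=
  (∫ G : C → ℝ, F G * (rho W m A s2 G : ℂ)) / ((∫ G : C → ℝ, rho W m A s2 G : ℝ) : ℂ)

theorem nub_norm (hW : Wt W) (hm : ∀ x, 0 < m x) (hG : Gin W m) {A : (C → ℝ) → V → ℝ}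
    (hA : Continuous A) {s2 : ℝ} (hs : 0 < s2) (F : (C → ℝ) → ℂ) {c : ℝ}
    (h : ‖∫ G : C → ℝ, F G * (rho W m A s2 G : ℂ)‖ ≤ c * ∫ G : C → ℝ, rho W m A s2 G) :
    ‖nub W m A s2 F‖ ≤ c := by
  have hp := rho_int_pos (C := C) hW hm hG hA hs
  unfold nub
  rw [norm_div, Complex.norm_real, Real.norm_eq_abs, abs_of_pos hp, div_le_iff₀ hp]
  exact h

end density

/-! ### the linear map `A` -/

section linear

variable {C : Type*} [Fintype C]

omit [Fintype V] in
/-- `A G = ∑ u, G u • φ u` is continuous -/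
theorem lin_cont (φ : C → V → ℝ) : Continuous fun (G : C → ℝ) (x : V) => ∑ u, G u * φ u x := by
  fun_prop

theorem AA_cont {N n l r : ℕ} [NeZero N] [NeZero n] :
    Continuous (H365.AA (N := N) (n := n) l r) := by
  have h : (H365.AA (N := N) (n := n) l r) = fun G x => ∑ u, G u * H365.phi l r u x := rfl
  rw [h]
  exact lin_cont _

omit [Fintype V] in
/-- `AA l r` as a linear map -/
noncomputable def AAl (N : ℕ) {n : ℕ} (l r : ℕ) [NeZero N] [NeZero n] :
    (ZMod n × ZMod n → ℝ) →ₗ[ℝ] (ZMod N × ZMod N → ℝ) where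
  toFun := H365.AA (N := N) (n := n) l r
  map_add' G G' := by
    funext x
    exact H365.AA_add G G' x
  map_smul' c G := by
    funext x
    exact H365.AA_smul c G x

theorem AAl_apply {N n l r : ℕ} [NeZero N] [NeZero n] (G : ZMod n × ZMod n → ℝ) :
    AAl N l r G = H365.AA (N := N) (n := n) l r G := rfl

theorem AAl_cont {N n l r : ℕ} [NeZero N] [NeZero n] : Continuous (AAl N (n := n) l r) :=
  AA_cont

/-- shifts of the coarse field by constants -/
theorem AA_add_const {N n l r : ℕ} [NeZero N] [NeZero n] (G : ZMod n × ZMod n → ℝ) (c : ℝ) :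
    H365.AA (N := N) (n := n) l r (fun u => G u + c) =
      fun x => H365.AA (N := N) (n := n) l r G x + c := by
  funext x
  have h := H365.AA_add (N := N) (l := l) (r := r) G (fun _ => c) x
  rw [H365.AA_const] at h
  exact h

end linear

/-! ### charges composed with `A` -/

section charges

open Vale.Agent.P159.TM.H215 (xm xb ch ch_cont ch_norm)

variable {C : Type*} [Fintype C]

/-- continuity of `xm` in the background -/
theorem xm_cont {U : (V → ℝ) → ℝ} (hU : Continuous U) (k : ℤ) : Continuous (xm U k) := by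
  unfold xm
  apply Continuous.neg
  apply intervalIntegral.continuous_parametric_intervalIntegral_of_continuous'
  refine Continuous.mul ?_ ((ch_cont k).comp continuous_snd)
  apply Complex.continuous_ofReal.comp
  exact hU.comp (continuous_pi fun y =>
    ((continuous_apply y).comp continuous_fst).add continuous_snd)

/-- gradient of `U` -/
noncomputable def Dg [DecidableEq V] (W : (V → ℤ) → ℝ) (m : V → ℝ) (f : V → ℝ) (x : V) : ℝ :=
  dU W m f (Pi.single x 1)

theorem Dg_cont [DecidableEq V] (hW : Wt W) (hm : ∀ x, 0 < m x) (x : V) :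
    Continuous fun f => Dg W m f x := H104.cont_dU hW hm _

theorem Dg_per [DecidableEq V] (hW : Wt W) (hm : ∀ x, 0 < m x) (hs : ∀ h, W (h + 1) = W h)
    (f : V → ℝ) : Dg W m (fun x => f x + 1) = Dg W m f := by
  funext x
  exact H104.dU_per hW hm hs f _

theorem U_per (hs : ∀ h, W (h + 1) = W h) (f : V → ℝ) : U W m (fun x => f x + 1) = U W m f :=
  H871.U_shift hs f

theorem xm_A_cont (hW : Wt W) (hm : ∀ x, 0 < m x) {A : (C → ℝ) → V → ℝ} (hA : Continuous A)
    (k : ℤ) : Continuous fun G => xm (U W m) k (A G) :=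
  (xm_cont (H104.cont_U hW hm) k).comp hA

theorem xb_A_cont {D : (V → ℝ) → V → ℝ} (hD : ∀ x, Continuous fun f => D f x) (k : ℤ)
    (χ : V → ℝ) {A : (C → ℝ) → V → ℝ} (hA : Continuous A) :
    Continuous fun G => xb D k χ (A G) :=
  (H215.xb_cont hD k χ).comp hA

theorem xb_A_cont' [DecidableEq V] (hW : Wt W) (hm : ∀ x, 0 < m x) (k : ℤ)
    (χ : V → ℝ) {A : (C → ℝ) → V → ℝ} (hA : Continuous A) :
    Continuous fun G => xb (Dg W m) k χ (A G) := xb_A_cont (Dg_cont hW hm) k χ hA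

/-- the clamp of 316 around `x0`, as a map of backgrounds -/
noncomputable def clp (L : ℝ) (d : V → ℝ) (x0 : V) (w : ℝ) (f : V → ℝ) : V → ℝ :=
  H316.cl L d (f x0) f w

omit [Fintype V] in
theorem clp_cont (L : ℝ) (d : V → ℝ) (x0 : V) (w : ℝ) : Continuous (clp L d x0 w) := by
  refine continuous_pi fun z => ?_
  unfold clp H316.cl
  fun_prop

omit [Fintype V] in
theorem clp_add_const (L : ℝ) (d : V → ℝ) (x0 : V) (w : ℝ) (f : V → ℝ) (c : ℝ) :
    clp L d x0 w (fun x => f x + c) = fun x => clp L d x0 w f x + c := by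
  funext z
  exact H316.cl_add_const L d (f x0) f w c z

/-- **the clamped charge is continuous** -/
theorem Ft_cont {D : (V → ℝ) → V → ℝ} (hD : ∀ x, Continuous fun f => D f x) (k : ℤ)
    (χ : V → ℝ) (L : ℝ) (d : V → ℝ) (x0 : V) (w : ℝ) {A : (C → ℝ) → V → ℝ}
    (hA : Continuous A) : Continuous fun G => xb D k χ (clp L d x0 w (A G)) :=
  (H215.xb_cont hD k χ).comp ((clp_cont L d x0 w).comp hA)

/-- exact charge of the clamped functional for constants on the set seen by the clamp -/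
theorem Ft_shift {D : (V → ℝ) → V → ℝ} (hD : ∀ f, D (fun x => f x + 1) = D f) (k : ℤ)
    (χ : V → ℝ) {L : ℝ} {d : V → ℝ} {x0 : V} {w : ℝ} (hx0 : L * d x0 < w) {f g : V → ℝ} {c : ℝ}
    (hg : ∀ z, L * d z < w → g z = f z + c) :
    xb D k χ (clp L d x0 w g) = ch k (-c) * xb D k χ (clp L d x0 w f) := by
  have e : clp L d x0 w g = fun x => clp L d x0 w f x + c := by
    rw [← clp_add_const]
    funext z
    unfold clp
    rw [hg x0 hx0]
    exact H316.cl_congr (fun z hz => hg z hz) z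
  rw [e]
  exact H215.xb_shift hD k χ _ c

end charges

/-! ### closed sets of coarse fields -/

section closed

variable {C : Type*} [Fintype C]

omit [Fintype V] in
theorem lip_closed (p : V → V → Prop) (B : V → V → ℝ) {A : (C → ℝ) → V → ℝ}
    (hA : Continuous A) : IsClosed {G : C → ℝ | ∀ x y, p x y → |A G x - A G y| ≤ B x y} := by
  simp only [Set.ofPred_forall]
  refine isClosed_iInter fun x => isClosed_iInter fun y => isClosed_iInter fun _ => ?_
  have hx : Continuous fun G => A G x := (continuous_apply x).comp hA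
  have hy : Continuous fun G => A G y := (continuous_apply y).comp hA
  exact isClosed_le (hx.sub hy).abs continuous_const

theorem lipT_closed {N : ℕ} {L : ℝ} {A : (C → ℝ) → SpecC.Tor N → ℝ} (hA : Continuous A) :
    IsClosed {G : C → ℝ | SpecC.LipT L (A G)} := by
  have h := lip_closed (fun _ _ => True) (fun x y => L * H859.tn (x - y)) hA
  have e : {G : C → ℝ | SpecC.LipT L (A G)} =
      {G : C → ℝ | ∀ x y, True → |A G x - A G y| ≤ L * H859.tn (x - y)} := by
    ext G
    simp only [Set.mem_ofPred_eq, SpecC.LipT, true_imp_iff]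
  rw [e]
  exact h

theorem lipT_meas {N : ℕ} {L : ℝ} {A : (C → ℝ) → SpecC.Tor N → ℝ} (hA : Continuous A) :
    MeasurableSet {G : C → ℝ | SpecC.LipT L (A G)} := (lipT_closed hA).measurableSet

end closed

end Vale.Agent.P159.TM.H845
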